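import Vale.Agent.P122.AN.Defs

/-! # P122 / AN : from the multiscale amplitudes to the estimate (E): grouping of the top tubes (helper273) -/

open MeasureTheory Complex Set Vale.Agent.P122.C2
open scoped ENNReal NNReal FourierTransform

set_option linter.all false

namespace Vale.Agent.P122.AN.Top

/-- `Σ ∫ ≤ ∫ Σ` without measurability -/
theorem sum_lint_le {ι : Type*} (s : Finset ι) (f : ι → E3 → ℝ≥0∞) :
    ∑ i ∈ s, ∫⁻ z, f i z ≤ ∫⁻ z, ∑ i ∈ s, f i z := by
  classical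
  induction s using Finset.induction_on with
  | empty => simp
  | insert i s hi ih =>
    rw [Finset.sum_insert hi]
    calc (∫⁻ z, f i z) + ∑ j ∈ s, ∫⁻ z, f j z ≤ (∫⁻ z, f i z) + ∫⁻ z, ∑ j ∈ s, f j z := by gcongr
      _ ≤ ∫⁻ z, (f i z + ∑ j ∈ s, f j z) := le_lintegral_add _ _
      _ = _ := by
          congr 1
          ext z
          rw [Finset.sum_insert hi]

theorem desc_self (K n : ℕ) (τ : Z2) : desc K n K τ = {τ} := by
  unfold desc
  ext θ
  rw [Fintype.mem_piFinset, Finset.mem_singleton]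
  constructor
  · intro h
    funext k
    have h1 := Finset.mem_Ico.1 (h k)
    simp only [Nat.sub_self, Nat.zero_mul, pow_zero, one_mul] at h1
    omega
  · rintro rfl k
    simp

theorem pie_self (K n : ℕ) (g : Z2 → E3 → ℂ) (τ : Z2) (z : E3) : pie K n g K τ z = 𝓕⁻ (g τ) z := by
  unfold pie
  rw [desc_self, Finset.sum_singleton]

/-- what is known of the top amplitudes -/
structure Tp (C : ℝ) (M K n : ℕ) (g : Z2 → E3 → ℂ) (a : Nd → ℝ) : Prop where
  supp : ∀ S, a S ≠ 0 → S.T = 0 ∧ Cap n K S.τ ∧ ∀ k, |(S.o k : ℝ)| ≤ C * 2 ^ (K * n)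
  top : ∀ S, ENNReal.ofReal (a S ^ 2) ≤ ENNReal.ofReal C * am2 M n K S (pie K n g K S.τ)

/-- grouping by the caps -/
theorem group (C : ℝ) (M K n : ℕ) (g : Z2 → E3 → ℂ) (a : Nd → ℝ) (h : Tp C M K n g a) (U : Finset Nd)
    (V : Finset Z2) (W : Z2 → E3 → ℝ≥0∞) (hV : ∀ S ∈ U, a S ≠ 0 → S.τ ∈ V)
    (hW : ∀ τ ∈ V, ∀ O : Finset (Fin 2 → ℤ), (∀ o ∈ O, (⟨τ, o, 0⟩ : Nd) ∈ U ∧ a ⟨τ, o, 0⟩ ≠ 0) →
      ∀ z, ∑ o ∈ O, wN M n K ⟨τ, o, 0⟩ z ≤ W τ z) :
    ∑ S ∈ U, ENNReal.ofReal (a S ^ 2) ≤ ENNReal.ofReal C * (ENNReal.ofReal (((2:ℝ) ^ (4 * K * n))⁻¹) *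
      ∑ τ ∈ V, ∫⁻ z, ‖𝓕⁻ (g τ) z‖ₑ ^ 2 * W τ z) := by
  classical
  have e1 : ∑ S ∈ U, ENNReal.ofReal (a S ^ 2) = ∑ S ∈ U.filter (fun S => a S ≠ 0), ENNReal.ofReal (a S ^ 2) := by
    rw [Finset.sum_filter]
    refine Finset.sum_congr rfl fun S _ => ?_
    by_cases h0 : a S = 0
    · simp [h0]
    · simp [h0]
  rw [e1]
  have hmaps : ∀ S ∈ U.filter (fun S => a S ≠ 0), S.τ ∈ V := by
    intro S hS
    rw [Finset.mem_filter] at hS
    exact hV S hS.1 hS.2
  calc ∑ S ∈ U.filter (fun S => a S ≠ 0), ENNReal.ofReal (a S ^ 2)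
      ≤ ∑ S ∈ U.filter (fun S => a S ≠ 0), ENNReal.ofReal C * am2 M n K S (pie K n g K S.τ) :=
        Finset.sum_le_sum fun S _ => h.top S
    _ = ∑ τ ∈ V, ∑ S ∈ (U.filter (fun S => a S ≠ 0)) with S.τ = τ,
          ENNReal.ofReal C * am2 M n K S (pie K n g K S.τ) := (Finset.sum_fiberwise_of_maps_to hmaps _).symm
    _ ≤ ∑ τ ∈ V, ENNReal.ofReal C * (ENNReal.ofReal (((2:ℝ) ^ (4 * K * n))⁻¹) *
          ∫⁻ z, ‖𝓕⁻ (g τ) z‖ₑ ^ 2 * W τ z) := by
        refine Finset.sum_le_sum fun τ hτ => ?_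
        set B := (U.filter (fun S => a S ≠ 0)).filter (fun S => S.τ = τ) with hB
        have hBm : ∀ S ∈ B, S ∈ U ∧ a S ≠ 0 ∧ S.τ = τ ∧ S.T = 0 := by
          intro S hS
          rw [hB, Finset.mem_filter, Finset.mem_filter] at hS
          exact ⟨hS.1.1, hS.1.2, hS.2, (h.supp S hS.1.2).1⟩
        have hBe : ∀ S ∈ B, S = ⟨τ, S.o, 0⟩ := by
          intro S hS
          obtain ⟨_, _, h3, h4⟩ := hBm S hS
          cases S
          simp_all
        calc ∑ S ∈ B, ENNReal.ofReal C * am2 M n K S (pie K n g K S.τ)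
            = ENNReal.ofReal C * ∑ S ∈ B, am2 M n K S (pie K n g K S.τ) := by rw [Finset.mul_sum]
          _ = ENNReal.ofReal C * (ENNReal.ofReal (((2:ℝ) ^ (4 * K * n))⁻¹) *
                ∑ S ∈ B, ∫⁻ z, ‖𝓕⁻ (g τ) z‖ₑ ^ 2 * wN M n K S z) := by
              congr 1
              rw [Finset.mul_sum]
              refine Finset.sum_congr rfl fun S hS => ?_
              unfold am2
              congr 1
              refine lintegral_congr fun z => ?_
              rw [pie_self, (hBm S hS).2.2.1]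
          _ ≤ ENNReal.ofReal C * (ENNReal.ofReal (((2:ℝ) ^ (4 * K * n))⁻¹) *
                ∫⁻ z, ‖𝓕⁻ (g τ) z‖ₑ ^ 2 * W τ z) := by
              gcongr
              refine (sum_lint_le _ _).trans ?_
              refine lintegral_mono fun z => ?_
              rw [← Finset.mul_sum]
              gcongr
              have e2 : ∑ S ∈ B, wN M n K S z = ∑ o ∈ B.image Nd.o, wN M n K ⟨τ, o, 0⟩ z := by
                rw [Finset.sum_image]
                · refine Finset.sum_congr rfl fun S hS => ?_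
                  conv_lhs => rw [hBe S hS]
                · intro S hS S' hS' hSS
                  rw [hBe S hS, hBe S' hS']
                  rw [hSS]
              rw [e2]
              refine hW τ hτ _ ?_ z
              intro o ho
              obtain ⟨S, hS, rfl⟩ := Finset.mem_image.1 ho
              rw [← hBe S hS]
              exact ⟨(hBm S hS).1, (hBm S hS).2.1⟩
    _ = _ := by rw [← Finset.mul_sum, ← Finset.mul_sum]

end Vale.Agent.P122.AN.Top
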