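import Vale.Agent.P122.AN273.TopA
import Vale.Agent.P122.H466.Gau

/-! # P122 / AN : the Katz-Tao condition and the energy of the top tubes (helper273) -/

open MeasureTheory Complex Set Vale.Agent.P122.C2
open scoped ENNReal NNReal FourierTransform

set_option linter.all false

namespace Vale.Agent.P122.AN.Top

theorem fw_smul (θ c : ℝ) (v : Fin 2 → ℝ) : fw θ (fun i => c * v i) = c * fw θ v := by unfold fw; ring
theorem fn_smul (θ c : ℝ) (v : Fin 2 → ℝ) : fn θ (fun i => c * v i) = c * fn θ v := by unfold fn; ring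
theorem fw_swap (θ : ℝ) (v w : Fin 2 → ℝ) : |fw θ (fun i => v i - w i)| = |fw θ (fun i => w i - v i)| := by
  rw [← abs_neg]; congr 1; unfold fw; ring
theorem fn_swap (θ : ℝ) (v w : Fin 2 → ℝ) : |fn θ (fun i => v i - w i)| = |fn θ (fun i => w i - v i)| := by
  rw [← abs_neg]; congr 1; unfold fn; ring

/-- gauge of a horizontal displacement -/
theorem gau_hor (θ R1 R2 R3 a b c d : ℝ) (s : Fin 2 → ℝ) (t : ℝ) :
    gau θ R1 R2 R3 s (!₂[a, b, t] - !₂[c, d, t]) = |fw θ ![a - c, b - d]| / R1 + |fn θ ![a - c, b - d]| / R2 := by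
  unfold gau dv
  simp

/-- [KTop] from `KTw` -/
theorem ktop (hWS : StWS) (M : ℕ) : ∃ Cw : ℝ, 0 ≤ Cw ∧ ∀ (C : ℝ) (K n : ℕ) (g : Z2 → E3 → ℂ) (a : Nd → ℝ) (Λ : ℝ),
    0 ≤ C → 0 ≤ Λ → Tp C (M + 3) K n g a → KTw M K n g Λ →
    ∀ (θ u1 u2 : ℝ) (p v : Fin 2 → ℝ) (U : Finset Nd), (1 / 2 : ℝ) ^ (K * n) ≤ u1 → u1 ≤ u2 → u2 ≤ 1 →
    (∀ S ∈ U, |fw θ (fun j => (S.o j : ℝ) / 2 ^ (K * n) - p j)| ≤ u2 ∧ |fn θ (fun j => (S.o j : ℝ) / 2 ^ (K * n) - p j)| ≤ u1 ∧
      |fw θ (fun j => slp n K S.τ j - v j)| ≤ u2 ∧ |fn θ (fun j => slp n K S.τ j - v j)| ≤ u1) →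
    ∑ S ∈ U, a S ^ 2 ≤ C * Cw * Λ * (u1 * u2 * 2 ^ (2 * K * n)) := by
  classical
  obtain ⟨Cw, hCw, hws⟩ := hWS M 2 (by norm_num)
  refine ⟨Cw, hCw, ?_⟩
  intro C K n g a Λ hC hΛ hT hK θ u1 u2 p v U hu1 hu12 hu2 hU
  have hN : (0:ℝ) < 2 ^ (K * n) := by positivity
  set N : ℝ := 2 ^ (K * n) with hNdef
  have hR : (2:ℝ) ^ (2 * K * n) = N ^ 2 := by rw [hNdef, ← pow_mul]; congr 1; ring
  have hR4 : (2:ℝ) ^ (4 * K * n) = N ^ 4 := by rw [hNdef, ← pow_mul]; congr 1; ring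
  have hR6 : (2:ℝ) ^ (6 * K * n) = N ^ 6 := by rw [hNdef, ← pow_mul]; congr 1; ring
  have hhalf : (1 / 2 : ℝ) ^ (K * n) = N⁻¹ := by rw [one_div, inv_pow]
  rw [hhalf] at hu1
  have hu1p : 0 < u1 := lt_of_lt_of_le (by positivity) hu1
  have hu2p : 0 < u2 := lt_of_lt_of_le hu1p hu12
  set P : E3 := !₂[N ^ 2 * p 0, N ^ 2 * p 1, 0] with hP
  have hg := group C (M + 3) K n g a hT U (U.image fun S => S.τ)
    (fun τ z => ENNReal.ofReal Cw * wg M θ (u2 * N ^ 2) (u1 * N ^ 2) (N ^ 2) v (z - P))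
    (fun S hS _ => Finset.mem_image_of_mem _ hS) ?_
  · have h1 : ∑ τ ∈ U.image (fun S => S.τ), ∫⁻ z, ‖𝓕⁻ (g τ) z‖ₑ ^ 2 *
        (ENNReal.ofReal Cw * wg M θ (u2 * N ^ 2) (u1 * N ^ 2) (N ^ 2) v (z - P)) ≤
        ENNReal.ofReal Cw * ENNReal.ofReal (Λ * (u1 * u2 * N ^ 6)) := by
      have h2 := hK θ u1 u2 v P (U.image fun S => S.τ) (by rw [hhalf]; exact hu1) hu12 hu2 (by
        intro τ hτ
        obtain ⟨S, hS, rfl⟩ := Finset.mem_image.1 hτ
        exact ⟨(hU S hS).2.2.1, (hU S hS).2.2.2⟩)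
      rw [hR, hR6] at h2
      refine le_trans (le_of_eq ?_) (mul_le_mul_right h2 (ENNReal.ofReal Cw))
      rw [Finset.mul_sum]
      refine Finset.sum_congr rfl fun τ _ => ?_
      rw [← lintegral_const_mul' _ _ ENNReal.ofReal_ne_top]
      refine lintegral_congr fun z => ?_
      ring
    have h3 : ENNReal.ofReal (∑ S ∈ U, a S ^ 2) ≤ ENNReal.ofReal (C * Cw * Λ * (u1 * u2 * N ^ 2)) := by
      rw [ENNReal.ofReal_sum_of_nonneg fun S _ => sq_nonneg _]
      refine hg.trans ?_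
      refine (mul_le_mul_right (mul_le_mul_right h1 _) _).trans ?_
      rw [← ENNReal.ofReal_mul hCw, ← ENNReal.ofReal_mul (by positivity), ← ENNReal.ofReal_mul hC]
      apply ENNReal.ofReal_le_ofReal
      rw [hR4]
      apply le_of_eq
      field_simp
    rw [hR]
    exact (ENNReal.ofReal_le_ofReal_iff (by positivity)).1 h3
  · intro τ hτ O hO z
    rcases O.eq_empty_or_nonempty with rfl | ⟨o0, ho0⟩
    · simp
    have hk := hU _ (hO o0 ho0).1
    simp only at hk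
    have h4 := hws N (N ^ 2) θ (u2 * N ^ 2) (u1 * N ^ 2) v (slp n K τ) O 0 P hN (by positivity) ?_ ?_ ?_ ?_ ?_ z
    · refine le_trans (le_of_eq ?_) h4
      refine Finset.sum_congr rfl fun o _ => ?_
      unfold wN bp
      rw [hR]
      simp
      rfl
    · rw [inv_le_iff_one_le_mul₀ hN] at hu1
      nlinarith
    · rw [inv_le_iff_one_le_mul₀ hN] at hu1
      nlinarith
    · rw [fw_swap]
      have := hk.2.2.1
      have h5 : (0:ℝ) < N ^ 2 := by positivity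
      nlinarith [abs_nonneg (fw θ fun i => slp n K τ i - v i)]
    · rw [fn_swap]
      have := hk.2.2.2
      have h5 : (0:ℝ) < N ^ 2 := by positivity
      nlinarith [abs_nonneg (fn θ fun i => slp n K τ i - v i)]
    · intro o ho
      have hk' := hU _ (hO o ho).1
      simp only at hk'
      rw [hP, gau_hor]
      have e1 : (![N * (o 0 : ℝ) - N ^ 2 * p 0, N * (o 1 : ℝ) - N ^ 2 * p 1] : Fin 2 → ℝ) =
          fun i => N ^ 2 * ((o i : ℝ) / N - p i) := by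
        funext i
        fin_cases i
        · simp; field_simp
        · simp; field_simp
      rw [e1, fw_smul, fn_smul, abs_mul, abs_mul, abs_of_pos (by positivity : (0:ℝ) < N ^ 2)]
      have h6 : N ^ 2 * |fw θ fun i => (o i : ℝ) / N - p i| / (u2 * N ^ 2) ≤ 1 := by
        rw [div_le_one (by positivity)]
        have := hk'.1
        have h5 : (0:ℝ) < N ^ 2 := by positivity
        nlinarith
      have h7 : N ^ 2 * |fn θ fun i => (o i : ℝ) / N - p i| / (u1 * N ^ 2) ≤ 1 := by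
        rw [div_le_one (by positivity)]
        have := hk'.2.1
        have h5 : (0:ℝ) < N ^ 2 := by positivity
        nlinarith
      linarith

end Vale.Agent.P122.AN.Top
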