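import Vale.Agent.P122.AN273.TopB

/-! # P122 / AN : the energy of the top tubes (helper273) -/

open MeasureTheory Complex Set Vale.Agent.P122.C2
open scoped ENNReal NNReal FourierTransform

set_option linter.all false

namespace Vale.Agent.P122.AN.Top

theorem norm_le3 (x : E3) : ‖x‖ ≤ |x 0| + |x 1| + |x 2| := by
  rw [EuclideanSpace.norm_eq, Fin.sum_univ_three]
  rw [Real.sqrt_le_left (by positivity)]
  simp only [Real.norm_eq_abs]
  nlinarith [abs_nonneg (x 0), abs_nonneg (x 1), abs_nonneg (x 2), mul_nonneg (abs_nonneg (x 0)) (abs_nonneg (x 1)),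
    mul_nonneg (abs_nonneg (x 0)) (abs_nonneg (x 2)), mul_nonneg (abs_nonneg (x 1)) (abs_nonneg (x 2))]

theorem fw0 (v : Fin 2 → ℝ) : fw 0 v = v 0 := by unfold fw; simp
theorem fn0 (v : Fin 2 → ℝ) : fn 0 v = v 1 := by unfold fn; simp

/-- the weight of the cube dominates the weight of a sheared cube of slope at most one -/
theorem wg_cube_le (M : ℕ) {R : ℝ} (hR : 0 < R) {s : Fin 2 → ℝ} (h0 : |s 0| ≤ 1) (h1 : |s 1| ≤ 1) (z : E3) :
    wg M 0 R R R s z ≤ ENNReal.ofReal (3 ^ M) * ENNReal.ofReal (((1 + ‖z‖ / R) ^ M)⁻¹) := by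
  unfold wg
  rw [← ENNReal.ofReal_mul (by positivity)]
  apply ENNReal.ofReal_le_ofReal
  have hg : 0 ≤ gau 0 R R R s z := gau_nonneg hR hR hR z
  have key : 1 + ‖z‖ / R ≤ 3 * (1 + gau 0 R R R s z) := by
    have h2 : ‖z‖ ≤ |z 0 - s 0 * z 2| + |z 1 - s 1 * z 2| + 3 * |z 2| := by
      have h3 := norm_le3 z
      have h4 : |z 0| ≤ |z 0 - s 0 * z 2| + |z 2| := by
        have : z 0 = (z 0 - s 0 * z 2) + s 0 * z 2 := by ring
        calc |z 0| = |(z 0 - s 0 * z 2) + s 0 * z 2| := by rw [← this]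
          _ ≤ |z 0 - s 0 * z 2| + |s 0 * z 2| := abs_add_le _ _
          _ ≤ _ := by rw [abs_mul]; nlinarith [abs_nonneg (z 2)]
      have h5 : |z 1| ≤ |z 1 - s 1 * z 2| + |z 2| := by
        have : z 1 = (z 1 - s 1 * z 2) + s 1 * z 2 := by ring
        calc |z 1| = |(z 1 - s 1 * z 2) + s 1 * z 2| := by rw [← this]
          _ ≤ |z 1 - s 1 * z 2| + |s 1 * z 2| := abs_add_le _ _
          _ ≤ _ := by rw [abs_mul]; nlinarith [abs_nonneg (z 2)]
      linarith
    have h6 : gau 0 R R R s z = (|z 0 - s 0 * z 2| + |z 1 - s 1 * z 2| + |z 2|) / R := by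
      unfold gau
      rw [fw0, fn0]
      unfold dv
      simp only [Matrix.cons_val_zero, Matrix.cons_val_one]
      ring
    rw [h6]
    have h7 : ‖z‖ / R ≤ 3 * ((|z 0 - s 0 * z 2| + |z 1 - s 1 * z 2| + |z 2|) / R) := by
      rw [← mul_div_assoc]
      apply div_le_div_of_nonneg_right _ hR.le
      have := abs_nonneg (z 0 - s 0 * z 2)
      have := abs_nonneg (z 1 - s 1 * z 2)
      linarith
    linarith
  have hz : 0 ≤ ‖z‖ / R := by positivity
  rw [inv_le_iff_one_le_mul₀ (by positivity)]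
  have h8 : (1 + ‖z‖ / R) ^ M ≤ 3 ^ M * (1 + gau 0 R R R s z) ^ M := by
    rw [← mul_pow]
    exact pow_le_pow_left₀ (by positivity) key M
  have h9 : (0:ℝ) < (1 + ‖z‖ / R) ^ M := by positivity
  calc (1:ℝ) = (1 + ‖z‖ / R) ^ M * ((1 + ‖z‖ / R) ^ M)⁻¹ := (mul_inv_cancel₀ h9.ne').symm
    _ ≤ (3 ^ M * (1 + gau 0 R R R s z) ^ M) * ((1 + ‖z‖ / R) ^ M)⁻¹ := by gcongr
    _ = _ := by ring

/-- [energy] -/
theorem energy (hWS : StWS) (M : ℕ) (C : ℝ) (hC : 1 ≤ C) : ∃ Ce : ℝ, 0 ≤ Ce ∧ ∀ (K n : ℕ) (g : Z2 → E3 → ℂ) (a : Nd → ℝ),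
    Tp C (M + 3) K n g a → ∀ U : Finset Nd,
    ENNReal.ofReal (∑ S ∈ U, a S ^ 2) ≤ ENNReal.ofReal (Ce * ((2:ℝ) ^ (4 * K * n))⁻¹) * enw M K n g := by
  classical
  obtain ⟨Cw, hCw, hws⟩ := hWS M (2 * C) (by linarith)
  refine ⟨C * (Cw * 3 ^ M), by positivity, ?_⟩
  intro K n g a hT U
  have hN : (0:ℝ) < 2 ^ (K * n) := by positivity
  set N : ℝ := 2 ^ (K * n) with hNdef
  have hR : (2:ℝ) ^ (2 * K * n) = N ^ 2 := by rw [hNdef, ← pow_mul]; congr 1; ring
  have hg := group C (M + 3) K n g a hT U (desc K n 0 0)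
    (fun τ z => ENNReal.ofReal (Cw * 3 ^ M) * ENNReal.ofReal (((1 + ‖z‖ / 2 ^ (2 * K * n)) ^ M)⁻¹)) ?_ ?_
  · rw [ENNReal.ofReal_sum_of_nonneg fun S _ => sq_nonneg _]
    refine hg.trans (le_of_eq ?_)
    have e1 : ∑ τ ∈ desc K n 0 0, ∫⁻ z, ‖𝓕⁻ (g τ) z‖ₑ ^ 2 *
        (ENNReal.ofReal (Cw * 3 ^ M) * ENNReal.ofReal (((1 + ‖z‖ / 2 ^ (2 * K * n)) ^ M)⁻¹)) =
        ENNReal.ofReal (Cw * 3 ^ M) * enw M K n g := by
      unfold enw
      rw [Finset.mul_sum]
      refine Finset.sum_congr rfl fun τ _ => ?_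
      rw [← lintegral_const_mul' _ _ ENNReal.ofReal_ne_top]
      refine lintegral_congr fun z => ?_
      ring
    rw [e1, ← mul_assoc, ← mul_assoc, ← ENNReal.ofReal_mul (by linarith), ← ENNReal.ofReal_mul (by positivity)]
    congr 2
    ring
  · intro S _ hS
    obtain ⟨_, hcap, _⟩ := hT.supp S hS
    unfold desc
    rw [Fintype.mem_piFinset]
    intro k
    rw [Finset.mem_Ico]
    have := hcap k
    simp only [Nat.sub_zero, Pi.zero_apply, mul_zero, zero_add, mul_one]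
    exact this
  · intro τ hτ O hO z
    rcases O.eq_empty_or_nonempty with rfl | ⟨o0, ho0⟩
    · simp
    have hcap := (hT.supp _ (hO o0 ho0).2).2.1
    have hs : ∀ k, |slp n K τ k| ≤ 1 := by
      intro k
      have h1 := hcap k
      simp only at h1
      unfold slp
      have h2 : (0:ℝ) ≤ (τ k : ℝ) := by exact_mod_cast h1.1
      have h3 : (τ k : ℝ) ≤ 2 ^ (K * n) := by exact_mod_cast h1.2.le
      rw [abs_of_nonneg (by positivity)]
      exact div_le_one_of_le₀ h3 (by positivity)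
    have h4 := hws N (N ^ 2) 0 (N ^ 2) (N ^ 2) (slp n K τ) (slp n K τ) O 0 !₂[0, 0, 0] hN (by positivity) ?_ ?_ ?_ ?_ ?_ z
    · have e2 : ∑ o ∈ O, wN (M + 3) n K ⟨τ, o, 0⟩ z = ∑ o ∈ O, wg (M + 3) 0 N N (N ^ 2) (slp n K τ)
          (z - !₂[N * (o 0 : ℝ), N * (o 1 : ℝ), 0]) := by
        refine Finset.sum_congr rfl fun o _ => ?_
        unfold wN bp
        rw [hR]
        simp
        rfl
      rw [e2]
      refine h4.trans ?_
      have e3 : z - (!₂[(0:ℝ), 0, 0] : E3) = z := by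
        ext i
        fin_cases i <;> simp
      rw [e3, ENNReal.ofReal_mul hCw, mul_assoc]
      gcongr
      rw [hR]
      exact wg_cube_le M (by positivity) (hs 0) (hs 1) z
    · have h1 : (1:ℝ) ≤ N := by rw [hNdef]; exact one_le_pow₀ (by norm_num)
      nlinarith
    · have h1 : (1:ℝ) ≤ N := by rw [hNdef]; exact one_le_pow₀ (by norm_num)
      nlinarith
    · simp [fw]
      positivity
    · simp [fn]
      positivity
    · intro o ho
      have h5 := (hT.supp _ (hO o ho).2).2.2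
      simp only at h5
      rw [gau_hor, fw0, fn0]
      simp only [Matrix.cons_val_zero, Matrix.cons_val_one, sub_zero]
      have h6 : ∀ k, |N * (o k : ℝ)| / N ^ 2 ≤ C := by
        intro k
        rw [abs_mul, abs_of_pos hN, div_le_iff₀ (by positivity)]
        have := h5 k
        nlinarith
      have := h6 0
      have := h6 1
      linarith

end Vale.Agent.P122.AN.Top
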