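import Vale.Agent.P122.AN273.TopC

/-! # P122 / AN : the estimate (E) on the half cube `0 ≤ z 2 ≤ R` (helper273) -/

open MeasureTheory Complex Set Vale.Agent.P122.C2
open scoped ENNReal NNReal FourierTransform

set_option linter.all false

namespace Vale.Agent.P122.AN.Top

theorem lint_biUnion_le {ι : Type*} (s : Finset ι) (A : ι → Set E3) (f : E3 → ℝ≥0∞) :
    ∫⁻ z in ⋃ i ∈ s, A i, f z ≤ ∑ i ∈ s, ∫⁻ z in A i, f z := by
  classical
  induction s using Finset.induction_on with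
  | empty => simp
  | insert i s hi ih =>
    rw [Finset.sum_insert hi, Finset.set_biUnion_insert]
    exact (lintegral_union_le f _ _).trans (by gcongr)

/-- the half cube -/
def Hf (K n : ℕ) : Set E3 := {z | |z 0| ≤ 2 ^ (2 * K * n) ∧ |z 1| ≤ 2 ^ (2 * K * n) ∧ 0 ≤ z 2 ∧ z 2 ≤ 2 ^ (2 * K * n)}

/-- the unit cubes of the half cube -/
noncomputable def XX (K n : ℕ) : Finset Nd :=
  ((Fintype.piFinset fun _ : Fin 2 => Finset.Icc (-(2 ^ (2 * K * n)) : ℤ) (2 ^ (2 * K * n))) ×ˢ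
    Finset.Ico (0:ℤ) (2 ^ (2 * K * n))).image fun q => (⟨0, q.1, q.2⟩ : Nd)

theorem mem_XX {K n : ℕ} {x : Nd} : x ∈ XX K n ↔
    x.τ = 0 ∧ 0 ≤ x.T ∧ x.T < 2 ^ (2 * K * n) ∧ ∀ k, |x.o k| ≤ 2 ^ (2 * K * n) := by
  unfold XX
  rw [Finset.mem_image]
  constructor
  · rintro ⟨q, hq, rfl⟩
    rw [Finset.mem_product, Fintype.mem_piFinset, Finset.mem_Ico] at hq
    refine ⟨rfl, hq.2.1, hq.2.2, fun k => ?_⟩
    have := Finset.mem_Icc.1 (hq.1 k)
    exact abs_le.2 this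
  · rintro ⟨h1, h2, h3, h4⟩
    refine ⟨(x.o, x.T), ?_, ?_⟩
    · rw [Finset.mem_product, Fintype.mem_piFinset, Finset.mem_Ico]
      exact ⟨fun k => Finset.mem_Icc.2 (abs_le.1 (h4 k)), h2, h3⟩
    · cases x
      simp_all

theorem Hf_subset (K n : ℕ) : Hf K n ⊆ ⋃ x ∈ XX K n, cube x := by
  intro z hz
  obtain ⟨h0, h1, h2, h3⟩ := hz
  have hRi : (1:ℤ) ≤ 2 ^ (2 * K * n) := one_le_pow₀ (by norm_num)
  have hcast : ((2 ^ (2 * K * n) : ℤ) : ℝ) = 2 ^ (2 * K * n) := by push_cast; rfl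
  set R : ℤ := 2 ^ (2 * K * n) with hR
  rw [← hcast] at h0 h1 h3
  rw [Set.mem_iUnion₂]
  refine ⟨⟨0, ![⌊z 0⌋, ⌊z 1⌋], min ⌊z 2⌋ (R - 1)⟩, ?_, ?_⟩
  · rw [mem_XX]
    refine ⟨rfl, ?_, ?_, ?_⟩
    · simp only
      have : 0 ≤ ⌊z 2⌋ := Int.floor_nonneg.2 h2
      omega
    · simp only
      omega
    · have hh : ∀ t : ℝ, |t| ≤ (R:ℝ) → |⌊t⌋| ≤ R := by
        intro t ht
        rw [abs_le] at ht ⊢
        constructor
        · rw [Int.le_floor]
          push_cast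
          exact ht.1
        · have : ⌊t⌋ ≤ ⌊((R:ℤ):ℝ)⌋ := Int.floor_le_floor ht.2
          rwa [Int.floor_intCast] at this
      intro k
      fin_cases k
      · exact hh _ h0
      · exact hh _ h1
  · unfold cube
    simp only [Set.mem_setOf_eq, Matrix.cons_val_zero, Matrix.cons_val_one]
    refine ⟨⟨Int.floor_le _, (Int.lt_floor_add_one _).le⟩, ⟨Int.floor_le _, (Int.lt_floor_add_one _).le⟩, ?_, ?_⟩
    · exact le_trans (by exact_mod_cast min_le_left _ _) (Int.floor_le _)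
    · rcases le_total ⌊z 2⌋ (R - 1) with hc | hc
      · rw [min_eq_left hc]
        exact (Int.lt_floor_add_one _).le
      · rw [min_eq_right hc]
        push_cast
        linarith

/-- the estimate on the half cube -/
theorem half (hAMP : StAMP) (hWS : StWS) (hCORE : StCORE) : ∀ ε : ℝ, 0 < ε → ∃ K : ℕ, 1 ≤ K ∧ ∀ (M : ℕ) (C0 : ℝ), 1 ≤ C0 →
    ∃ C : ℝ, 0 ≤ C ∧ ∀ (n : ℕ)
    (Q : Set (Fin 2 → ℝ)) (h : (Fin 2 → ℝ) → ℝ) (v : (Fin 2 → ℝ) → Fin 2 → ℝ) (g : Z2 → E3 → ℂ) (Λ : ℝ),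
    Srf C0 Q h v → Dat C0 K n Q h v g → 0 ≤ Λ → KTw M K n g Λ →
    ∫⁻ z in Hf K n, ‖pie K n g 0 0 z‖ₑ ^ 3 ≤
      ENNReal.ofReal (C * 2 ^ (ε * (K * n)) * Real.sqrt Λ) * enw M K n g := by
  intro ε hε
  obtain ⟨K, hK, hcore⟩ := hCORE ε hε
  refine ⟨K, hK, ?_⟩
  intro M C0 hC0
  obtain ⟨C1, hC1, hamp⟩ := hAMP K (M + 3) C0 hK hC0
  obtain ⟨C', hC', hcore⟩ := hcore C1 hC1
  obtain ⟨Cw, hCw, hktop⟩ := ktop hWS M
  obtain ⟨Ce, hCe, hen⟩ := energy hWS M C1 hC1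
  refine ⟨C1 * C' * Real.sqrt (C1 * Cw) * Ce + 1, by positivity, ?_⟩
  intro n Q h v g Λ hS hD hΛ hKT
  obtain ⟨F, hFs, hF0, hF1⟩ := hamp n Q h v g hS hD
  have hT : Tp C1 (M + 3) K n g (F.a K) := ⟨F.supp, hF1⟩
  have hkt : ∀ (θ u1 u2 : ℝ) (p v : Fin 2 → ℝ) (U : Finset Nd), (1 / 2 : ℝ) ^ (K * n) ≤ u1 → u1 ≤ u2 → u2 ≤ 1 →
      (∀ S ∈ U, |fw θ (fun j => (S.o j : ℝ) / 2 ^ (K * n) - p j)| ≤ u2 ∧ |fn θ (fun j => (S.o j : ℝ) / 2 ^ (K * n) - p j)| ≤ u1 ∧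
        |fw θ (fun j => slp n K S.τ j - v j)| ≤ u2 ∧ |fn θ (fun j => slp n K S.τ j - v j)| ≤ u1) →
      ∑ S ∈ U, F.a K S ^ 2 ≤ C1 * Cw * Λ * (u1 * u2 * 2 ^ (2 * K * n)) :=
    fun θ u1 u2 p v U h1 h2 h3 h4 => hktop C1 K n g (F.a K) Λ (by linarith) hΛ hT hKT θ u1 u2 p v U h1 h2 h3 h4
  have hKTop : KTop F (C1 * Cw * Λ) := by
    intro θ u1 u2 p v U h1 h2 h3 h4
    refine hkt θ u1 u2 p v U h1 h2 h3 ?_
    rw [hFs] at h4
    exact h4
  -- the main inequality, for any bound `E` of the energy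
  have main : ∀ E : ℝ, 0 ≤ E → (∀ U : Finset Nd, ∑ S ∈ U, F.a K S ^ 2 ≤ E) →
      ∫⁻ z in Hf K n, ‖pie K n g 0 0 z‖ₑ ^ 3 ≤
        ENNReal.ofReal (C1 * (C' * 2 ^ (ε * (K * n)) * Real.sqrt (C1 * Cw * Λ) * 2 ^ (4 * K * n) * E)) := by
    intro E hE hU
    have h1 := hcore n F (C1 * Cw * Λ) E hKTop hU (XX K n) (fun x hx => by
      rw [mem_XX] at hx
      exact ⟨hx.1, hx.2.1, hx.2.2.1⟩)
    calc ∫⁻ z in Hf K n, ‖pie K n g 0 0 z‖ₑ ^ 3
        ≤ ∫⁻ z in ⋃ x ∈ XX K n, cube x, ‖pie K n g 0 0 z‖ₑ ^ 3 := lintegral_mono_set (Hf_subset K n)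
      _ ≤ ∑ x ∈ XX K n, ∫⁻ z in cube x, ‖pie K n g 0 0 z‖ₑ ^ 3 := lint_biUnion_le _ _ _
      _ ≤ ∑ x ∈ XX K n, ENNReal.ofReal (C1 * F.a 0 x ^ 3) := by
          refine Finset.sum_le_sum fun x hx => ?_
          rw [mem_XX] at hx
          exact hF0 x hx.1 hx.2.1 hx.2.2.1 hx.2.2.2
      _ = ENNReal.ofReal (C1 * ∑ x ∈ XX K n, F.a 0 x ^ 3) := by
          rw [← ENNReal.ofReal_sum_of_nonneg, Finset.mul_sum]
          intro x _
          have := F.a0 0 x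
          positivity
      _ ≤ _ := by
          apply ENNReal.ofReal_le_ofReal
          gcongr
  by_cases hΛ0 : Λ = 0
  · -- no mass at all
    have hz : ∀ U : Finset Nd, ∑ S ∈ U, F.a K S ^ 2 ≤ 0 := by
      intro U
      apply le_of_eq
      refine Finset.sum_eq_zero fun S _ => ?_
      have h5 := hkt 0 1 1 (fun j => (S.o j : ℝ) / 2 ^ (K * n)) (fun j => slp n K S.τ j) {S}
        (pow_le_one₀ (by norm_num) (by norm_num)) le_rfl le_rfl (by
          intro S' hS'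
          rw [Finset.mem_singleton] at hS'
          subst hS'
          simp [fw, fn])
      rw [Finset.sum_singleton, hΛ0] at h5
      have := sq_nonneg (F.a K S)
      linarith
    refine (main 0 le_rfl hz).trans ?_
    simp
  · have hΛp : 0 < Λ := lt_of_le_of_ne hΛ (Ne.symm hΛ0)
    by_cases hE : enw M K n g = ⊤
    · rw [hE, ENNReal.mul_top]
      · exact le_top
      · rw [Ne, ENNReal.ofReal_eq_zero, not_le]
        have : 0 < Real.sqrt Λ := Real.sqrt_pos.2 hΛp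
        positivity
    · have hr : ∀ U : Finset Nd, ∑ S ∈ U, F.a K S ^ 2 ≤ Ce * ((2:ℝ) ^ (4 * K * n))⁻¹ * (enw M K n g).toReal := by
        intro U
        have h6 := hen K n g (F.a K) hT U
        rw [← ENNReal.ofReal_toReal hE, ← ENNReal.ofReal_mul (by positivity)] at h6
        exact (ENNReal.ofReal_le_ofReal_iff (by positivity)).1 h6
      refine (main _ (by positivity) hr).trans ?_
      calc _ ≤ ENNReal.ofReal ((C1 * C' * Real.sqrt (C1 * Cw) * Ce + 1) * 2 ^ (ε * (K * n)) * Real.sqrt Λ *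
              (enw M K n g).toReal) := by
            apply ENNReal.ofReal_le_ofReal
            rw [Real.sqrt_mul (by positivity)]
            have h4 : (2:ℝ) ^ (4 * K * n) ≠ 0 := by positivity
            have e1 : C1 * (C' * 2 ^ (ε * (K * n)) * (Real.sqrt (C1 * Cw) * Real.sqrt Λ) * 2 ^ (4 * K * n) *
                (Ce * ((2:ℝ) ^ (4 * K * n))⁻¹ * (enw M K n g).toReal)) =
                (C1 * C' * Real.sqrt (C1 * Cw) * Ce) * 2 ^ (ε * (K * n)) * Real.sqrt Λ * (enw M K n g).toReal := by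
              field_simp
            rw [e1]
            have h7 : 0 ≤ (enw M K n g).toReal := ENNReal.toReal_nonneg
            have h8 : (0:ℝ) ≤ 2 ^ (ε * (K * n)) := by positivity
            gcongr
            linarith
        _ = _ := by
            rw [ENNReal.ofReal_mul (by positivity), ENNReal.ofReal_toReal hE]

end Vale.Agent.P122.AN.Top
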