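import Vale.Agent.P122.AN273.TopD

/-! # P122 / AN : the estimate (E) from the amplitudes and the multiscale theorem (helper273) -/

open MeasureTheory Complex Set Vale.Agent.P122.C2
open scoped ENNReal NNReal FourierTransform

set_option linter.all false

namespace Vale.Agent.P122.AN.Top

/-- modulation by `b` -/
noncomputable def md (b : E3) (f : E3 → ℂ) (ξ : E3) : ℂ := cexp (((-(2 * Real.pi * inner ℝ ξ b) : ℝ) : ℂ) * I) * f ξ

theorem md_ne {b : E3} {f : E3 → ℂ} {ξ : E3} (h : md b f ξ ≠ 0) : f ξ ≠ 0 := by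
  intro h0
  apply h
  unfold md
  rw [h0, mul_zero]

theorem norm_md (b : E3) (f : E3 → ℂ) (ξ : E3) : ‖md b f ξ‖ = ‖f ξ‖ := by
  unfold md
  rw [norm_mul, Complex.norm_exp_ofReal_mul_I, one_mul]

theorem inv_md (b : E3) (f : E3 → ℂ) (z : E3) : 𝓕⁻ (md b f) z = 𝓕⁻ f (z - b) := by
  rw [Real.fourierInv_eq', Real.fourierInv_eq']
  refine integral_congr_ae (Filter.Eventually.of_forall fun ξ => ?_)
  simp only [smul_eq_mul]
  unfold md
  rw [← mul_assoc, ← Complex.exp_add]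
  congr 2
  rw [inner_sub_right]
  push_cast
  ring

theorem integrable_md {b : E3} {f : E3 → ℂ} (hf : Integrable f) : Integrable (md b f) := by
  refine hf.norm.mono' ?_ (Filter.Eventually.of_forall fun ξ => (norm_md b f ξ).le)
  refine AEStronglyMeasurable.mul ?_ hf.aestronglyMeasurable
  exact Continuous.aestronglyMeasurable (by fun_prop)

theorem pie_md (K n : ℕ) (g : Z2 → E3 → ℂ) (b : E3) (i : ℕ) (τ : Z2) (z : E3) :
    pie K n (fun θ => md b (g θ)) i τ z = pie K n g i τ (z - b) := by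
  unfold pie
  exact Finset.sum_congr rfl fun θ _ => inv_md b (g θ) z

theorem dat_md {C : ℝ} {K n : ℕ} {Q : Set (Fin 2 → ℝ)} {h : (Fin 2 → ℝ) → ℝ} {v : (Fin 2 → ℝ) → Fin 2 → ℝ}
    {g : Z2 → E3 → ℂ} (hD : Dat C K n Q h v g) (b : E3) : Dat C K n Q h v (fun θ => md b (g θ)) where
  int θ := integrable_md (hD.int θ)
  cell θ ξ hξ := hD.cell θ ξ (md_ne hξ)
  dom θ ξ hξ := hD.dom θ ξ (md_ne hξ)
  slope θ ξ hξ := hD.slope θ ξ (md_ne hξ)
  near θ ξ hξ := hD.near θ ξ (md_ne hξ)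

/-- change of variables in weighted integrals of the modulated pieces -/
theorem lint_md (b : E3) (f : E3 → ℂ) (W : E3 → ℝ≥0∞) :
    ∫⁻ z, ‖𝓕⁻ (md b f) z‖ₑ ^ 2 * W z = ∫⁻ z, ‖𝓕⁻ f z‖ₑ ^ 2 * W (z + b) := by
  rw [← lintegral_sub_right_eq_self (fun z => ‖𝓕⁻ f z‖ₑ ^ 2 * W (z + b)) b]
  refine lintegral_congr fun z => ?_
  rw [inv_md, sub_add_cancel]

theorem ktw_md {M K n : ℕ} {g : Z2 → E3 → ℂ} {Λ : ℝ} (hK : KTw M K n g Λ) (b : E3) :
    KTw M K n (fun θ => md b (g θ)) Λ := by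
  intro θ u1 u2 s p U h1 h2 h3 h4
  refine le_trans (le_of_eq ?_) (hK θ u1 u2 s (p - b) U h1 h2 h3 h4)
  refine Finset.sum_congr rfl fun τ _ => ?_
  rw [lint_md b (g τ) (fun z => wg M θ (u2 * 2 ^ (2 * K * n)) (u1 * 2 ^ (2 * K * n)) (2 ^ (2 * K * n)) s (z - p))]
  refine lintegral_congr fun z => ?_
  rw [show z + b - p = z - (p - b) by abel]

theorem wcube_add {M : ℕ} {R : ℝ} (hR : 0 < R) {b : E3} (hb : ‖b‖ ≤ R) (z : E3) :
    ENNReal.ofReal (((1 + ‖z + b‖ / R) ^ M)⁻¹) ≤ ENNReal.ofReal (2 ^ M) * ENNReal.ofReal (((1 + ‖z‖ / R) ^ M)⁻¹) := by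
  rw [← ENNReal.ofReal_mul (by positivity)]
  apply ENNReal.ofReal_le_ofReal
  have h1 : ‖z‖ / R ≤ ‖z + b‖ / R + 1 := by
    rw [div_add_one hR.ne']
    apply div_le_div_of_nonneg_right _ hR.le
    calc ‖z‖ = ‖z + b - b‖ := by rw [add_sub_cancel_right]
      _ ≤ ‖z + b‖ + ‖b‖ := norm_sub_le _ _
      _ ≤ _ := by linarith
  have h2 : 0 ≤ ‖z + b‖ / R := by positivity
  have h3 : 0 ≤ ‖z‖ / R := by positivity
  rw [inv_le_iff_one_le_mul₀ (by positivity)]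
  have h8 : (1 + ‖z‖ / R) ^ M ≤ 2 ^ M * (1 + ‖z + b‖ / R) ^ M := by
    rw [← mul_pow]
    exact pow_le_pow_left₀ (by positivity) (by linarith) M
  have h9 : (0:ℝ) < (1 + ‖z‖ / R) ^ M := by positivity
  calc (1:ℝ) = (1 + ‖z‖ / R) ^ M * ((1 + ‖z‖ / R) ^ M)⁻¹ := (mul_inv_cancel₀ h9.ne').symm
    _ ≤ (2 ^ M * (1 + ‖z + b‖ / R) ^ M) * ((1 + ‖z‖ / R) ^ M)⁻¹ := by gcongr
    _ = _ := by ring

theorem enw_md {M K n : ℕ} {g : Z2 → E3 → ℂ} {b : E3} (hb : ‖b‖ ≤ 2 ^ (2 * K * n)) :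
    enw M K n (fun θ => md b (g θ)) ≤ ENNReal.ofReal (2 ^ M) * enw M K n g := by
  unfold enw
  rw [Finset.mul_sum]
  refine Finset.sum_le_sum fun θ _ => ?_
  rw [lint_md b (g θ) (fun z => ENNReal.ofReal (((1 + ‖z‖ / 2 ^ (2 * K * n)) ^ M)⁻¹)),
    ← lintegral_const_mul' _ _ ENNReal.ofReal_ne_top]
  refine lintegral_mono fun z => ?_
  calc ‖𝓕⁻ (g θ) z‖ₑ ^ 2 * ENNReal.ofReal (((1 + ‖z + b‖ / 2 ^ (2 * K * n)) ^ M)⁻¹)
      ≤ ‖𝓕⁻ (g θ) z‖ₑ ^ 2 * (ENNReal.ofReal (2 ^ M) * ENNReal.ofReal (((1 + ‖z‖ / 2 ^ (2 * K * n)) ^ M)⁻¹)) := by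
        gcongr
        exact wcube_add (by positivity) hb z
    _ = _ := by ring

/-- the vertical vector of length `R` -/
noncomputable def vb (K n : ℕ) : E3 := !₂[0, 0, (2:ℝ) ^ (2 * K * n)]

theorem norm_vb (K n : ℕ) : ‖vb K n‖ ≤ 2 ^ (2 * K * n) := by
  refine (norm_le3 _).trans ?_
  unfold vb
  simp

/-- **[TOP]** the estimate (E) -/
theorem stE (hAMP : StAMP) (hWS : StWS) (hCORE : StCORE) : StE := by
  intro ε hε
  obtain ⟨K, hK, hhalf⟩ := half hAMP hWS hCORE ε hε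
  refine ⟨K, hK, ?_⟩
  intro M C0 hC0
  obtain ⟨C, hC, hh⟩ := hhalf M C0 hC0
  refine ⟨C * (1 + 2 ^ M), by positivity, ?_⟩
  intro n Q h v g Λ hS hD hΛ hKT
  set b := vb K n with hb
  have h1 := hh n Q h v g Λ hS hD hΛ hKT
  have h2 := hh n Q h v (fun θ => md b (g θ)) Λ hS (dat_md hD b) hΛ (ktw_md hKT b)
  have hsub : {z : E3 | ∀ i, |z i| ≤ 2 ^ (2 * K * n)} ⊆ Hf K n ∪ (fun z => z + b) ⁻¹' Hf K n := by
    intro z hz
    rw [Set.mem_setOf_eq] at hz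
    rcases le_total 0 (z 2) with hc | hc
    · left
      exact ⟨hz 0, hz 1, hc, (abs_le.1 (hz 2)).2⟩
    · right
      rw [Set.mem_preimage]
      have hz2 := (abs_le.1 (hz 2)).1
      refine ⟨?_, ?_, ?_, ?_⟩
      · have : (z + b) 0 = z 0 := by rw [hb]; simp [vb]
        rw [this]; exact hz 0
      · have : (z + b) 1 = z 1 := by rw [hb]; simp [vb]
        rw [this]; exact hz 1
      · have : (z + b) 2 = z 2 + 2 ^ (2 * K * n) := by rw [hb]; simp [vb]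
        rw [this]; linarith
      · have : (z + b) 2 = z 2 + 2 ^ (2 * K * n) := by rw [hb]; simp [vb]
        rw [this]; linarith
  have h3 : ∫⁻ z in (fun z => z + b) ⁻¹' Hf K n, ‖pie K n g 0 0 z‖ₑ ^ 3 =
      ∫⁻ z in Hf K n, ‖pie K n (fun θ => md b (g θ)) 0 0 z‖ₑ ^ 3 := by
    have h4 := (measurePreserving_add_right (volume : Measure E3) b).setLIntegral_comp_preimage_emb
      (measurableEmbedding_addRight b) (fun z => ‖pie K n (fun θ => md b (g θ)) 0 0 z‖ₑ ^ 3) (Hf K n)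
    rw [← h4]
    refine lintegral_congr fun z => ?_
    rw [pie_md, add_sub_cancel_right]
  calc ∫⁻ z in {z : E3 | ∀ i, |z i| ≤ 2 ^ (2 * K * n)}, ‖pie K n g 0 0 z‖ₑ ^ 3
      ≤ ∫⁻ z in Hf K n ∪ (fun z => z + b) ⁻¹' Hf K n, ‖pie K n g 0 0 z‖ₑ ^ 3 := lintegral_mono_set hsub
    _ ≤ (∫⁻ z in Hf K n, ‖pie K n g 0 0 z‖ₑ ^ 3) + ∫⁻ z in (fun z => z + b) ⁻¹' Hf K n, ‖pie K n g 0 0 z‖ₑ ^ 3 :=
        lintegral_union_le _ _ _
    _ ≤ ENNReal.ofReal (C * 2 ^ (ε * (K * n)) * Real.sqrt Λ) * enw M K n g +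
        ENNReal.ofReal (C * 2 ^ (ε * (K * n)) * Real.sqrt Λ) * (ENNReal.ofReal (2 ^ M) * enw M K n g) := by
        rw [h3]
        gcongr
        exact h2.trans (by gcongr; exact enw_md (norm_vb K n))
    _ = _ := by
        have e1 : ENNReal.ofReal (C * (1 + 2 ^ M) * 2 ^ (ε * (K * n)) * Real.sqrt Λ) =
            ENNReal.ofReal (C * 2 ^ (ε * (K * n)) * Real.sqrt Λ) * (1 + ENNReal.ofReal (2 ^ M)) := by
          rw [← ENNReal.ofReal_one, ← ENNReal.ofReal_add (by norm_num) (by positivity), ← ENNReal.ofReal_mul (by positivity)]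
          congr 1
          ring
        rw [e1]
        ring

end Vale.Agent.P122.AN.Top
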